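import Vale.Agent.P123.Main

open Polynomial

universe u

namespace Vale.Agent.Results.P123.Crouzeix

/-- Crouzeix's conjecture: the least constant `c` with
`‖P(A)‖ ≤ c * sup_{z ∈ W(A)} |P(z)|` for all Hilbert spaces, operators and polynomials is `2`. -/
theorem result : IsLeast
    {c : ℝ | ∀ (H : Type u) [NormedAddCommGroup H] [InnerProductSpace ℂ H] [CompleteSpace H]
      [Nontrivial H] (A : H →L[ℂ] H) (P : ℂ[X]),
      ‖aeval A P‖ ≤ c * sSup ((fun z => ‖P.eval z‖) ''
        {w : ℂ | ∃ x : H, ‖x‖ = 1 ∧ @inner ℂ H InnerProductSpace.toInner x (A x) = w})} 2 :=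
  ⟨fun _ _ _ _ _ A P => Vale.Agent.P123.norm_aeval_le_two_mul_sSup A P,
    fun c hc => Vale.Agent.P123.two_le_of_bound c hc⟩

end Vale.Agent.Results.P123.Crouzeix
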